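import Vale.Agent.P073.Defs

/-!
# Compositions of small Lipschitz perturbations of linear automorphisms
-/

namespace Vale.Agent.P073

open scoped NNReal

variable {E : Type*} [NormedAddCommGroup E] [NormedSpace ℝ E]

/-- `h x = A (x + φ x)` with `A` a linear automorphism and `φ` Lipschitz with constant below `1`. -/
def IsTameFactor (h : E → E) : Prop :=
  ∃ (A : E ≃L[ℝ] E) (φ : E → E) (η : ℝ≥0), η < 1 ∧ LipschitzWith η φ ∧ ∀ x, h x = A (x + φ x)

/-- `h` is a finite composition of such maps; these maps are bi-Lipschitz. -/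
def IsTame (h : E → E) : Prop :=
  ∃ l : List (E → E), (∀ k ∈ l, IsTameFactor k) ∧ h = l.foldr (fun k r => k ∘ r) id

end Vale.Agent.P073
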