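import Vale.Agent.P073.Tame.Comp
import Vale.Agent.P073.Tame.Defs

/-!
# Small Lipschitz perturbations of linear automorphisms are good
-/

namespace Vale.Agent.P073

open MeasureTheory Metric Set Function Filter
open scoped ContDiff Topology ENNReal NNReal RealInnerProductSpace

set_option linter.unusedSectionVars false

variable {E : Type} [NormedAddCommGroup E] [InnerProductSpace ℝ E] [FiniteDimensional ℝ E]
  [MeasureSpace E] [BorelSpace E] [(volume : Measure E).IsAddHaarMeasure] [Nontrivial E]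

/-- A contraction perturbation of the identity, followed by a linear automorphism, as a
homeomorphism of the whole space. -/
theorem exists_homeomorph_perturb (A : E ≃L[ℝ] E) {φ : E → E} {η : ℝ≥0} (hη : η < 1)
    (hφ : LipschitzWith η φ) : ∃ T : E ≃ₜ E, ∀ x, T x = A (x + φ x) := by
  have happ : ApproximatesLinearOn (fun x => x + φ x)
      ((ContinuousLinearEquiv.refl ℝ E : E ≃L[ℝ] E) : E →L[ℝ] E) univ η :=
    fun x _ y _ => by
      simpa [show x + φ x - (y + φ y) - (x - y) = φ x - φ y by abel] using hφ.norm_sub_le x y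
  have hc : Subsingleton E ∨ η < ‖((ContinuousLinearEquiv.refl ℝ E).symm : E →L[ℝ] E)‖₊⁻¹ := by
    refine Or.inr ?_
    rw [ContinuousLinearEquiv.refl_symm, ContinuousLinearEquiv.coe_refl,
      show ‖ContinuousLinearMap.id ℝ E‖₊ = 1 from Subtype.ext ContinuousLinearMap.norm_id, inv_one]
    exact hη
  exact ⟨(ApproximatesLinearOn.toHomeomorph _ happ hc).trans A.toHomeomorph, fun x => rfl⟩

theorem hasSobolevDeriv_lipschitz {φ : E → E} {η : ℝ≥0} (hφ : LipschitzWith η φ) {Ω : Set E}
    (hΩ : IsOpen Ω) (hΩb : Bornology.IsBounded Ω) : HasSobolevDeriv Ω 1 φ (fderiv ℝ φ) := by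
  have hfin : IsFiniteMeasure (volume.restrict Ω) := ⟨by
    rw [Measure.restrict_apply_univ]; exact hΩb.measure_lt_top⟩
  obtain ⟨B, hB⟩ := (hφ.isBounded_image hΩb).exists_norm_le
  have hfi : Integrable φ (volume.restrict Ω) :=
    (integrable_const B).mono' hφ.continuous.aestronglyMeasurable
      (ae_restrict_of_forall_mem hΩ.measurableSet fun x hx => hB _ (mem_image_of_mem φ hx))
  have hDi : Integrable (fderiv ℝ φ) (volume.restrict Ω) :=
    (integrable_const (η : ℝ)).mono' (measurable_fderiv ℝ φ).stronglyMeasurable.aestronglyMeasurable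
      (Eventually.of_forall fun x => norm_fderiv_le_of_lipschitz ℝ hφ)
  refine ⟨memLp_one_iff_integrable.2 hfi, memLp_one_iff_integrable.2 hDi,
    fun ψ hψ hψc hψΩ v => ?_⟩
  obtain ⟨D, hD⟩ := (hψ.of_le (m := 1) (by simp)).lipschitzWith_of_hasCompactSupport
    hψc one_ne_zero
  obtain ⟨B', hB'⟩ := (hψc.fderiv_apply ℝ v).exists_bound_of_continuous
    ((hψ.continuous_fderiv (by simp)).clm_apply continuous_const)
  obtain ⟨B'', hB''⟩ := hψc.exists_bound_of_continuous hψ.continuous
  have i1 : Integrable (fun x => fderiv ℝ ψ x v • φ x) (volume.restrict Ω) :=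
    hfi.bdd_smul B' ((hψ.continuous_fderiv (by simp)).clm_apply
      continuous_const).aestronglyMeasurable (Eventually.of_forall hB')
  have i2 : Integrable (fun x => ψ x • fderiv ℝ φ x v) (volume.restrict Ω) :=
    (hDi.apply_continuousLinearMap v).bdd_smul B'' hψ.continuous.aestronglyMeasurable
      (Eventually.of_forall hB'')
  refine ext_inner_left ℝ fun w => ?_
  rw [inner_neg_right, ← integral_inner i1, ← integral_inner i2]
  simp only [inner_smul_right]
  set g : E → ℝ := fun x => ⟪w, φ x⟫ with hg_def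
  have hg : LipschitzWith (‖innerSL ℝ w‖₊ * η) g := (innerSL ℝ w).lipschitz.comp hφ
  have hd : ∀ᵐ x : E, lineDeriv ℝ g x v = ⟪w, fderiv ℝ φ x v⟫ := by
    filter_upwards [hφ.ae_differentiableAt] with x hx
    exact (((innerSL ℝ w).hasFDerivAt.comp x hx.hasFDerivAt).hasLineDerivAt v).lineDeriv
  have h := hg.integral_lineDeriv_mul_eq (μ := (volume : Measure E)) hD hψc v
  rw [setIntegral_eq_integral_of_forall_compl_eq_zero fun x hx => ?_,
    setIntegral_eq_integral_of_forall_compl_eq_zero fun x hx => ?_]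
  · have h1 : ∫ x, lineDeriv ℝ g x v * ψ x = ∫ x, ψ x * ⟪w, fderiv ℝ φ x v⟫ :=
      integral_congr_ae (by filter_upwards [hd] with x hx; rw [hx, mul_comm])
    have h2 : ∫ x, lineDeriv ℝ ψ x (-v) * g x = -∫ x, fderiv ℝ ψ x v * ⟪w, φ x⟫ := by
      rw [← integral_neg]
      refine integral_congr_ae (Eventually.of_forall fun x => ?_)
      simp only [hg_def]
      rw [((hψ.differentiable (by simp)) x).lineDeriv_eq_fderiv, map_neg, neg_mul]
    rw [← h1, h, h2, neg_neg]
  · rw [image_eq_zero_of_notMem_tsupport fun h => hx (hψΩ h), zero_mul]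
  · rw [image_eq_zero_of_notMem_tsupport fun h => hx (hψΩ (tsupport_fderiv_apply_subset ℝ v h)),
      zero_mul]

theorem isGood_factor {h : E → E} (hh : IsTameFactor h) : IsGood h := by
  classical
  obtain ⟨A, φ, η, hη, hφ, heq⟩ := hh
  obtain ⟨T, hT⟩ := exists_homeomorph_perturb A hη hφ
  have hhT : h = T := funext fun x => by rw [heq, hT]
  have hlip : LipschitzWith (‖(A : E →L[ℝ] E)‖₊ * (1 + η)) h := by
    rw [show h = (A : E →L[ℝ] E) ∘ fun x => x + φ x from funext heq]
    exact (A : E →L[ℝ] E).lipschitz.comp (LipschitzWith.id.add hφ)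
  refine ⟨⟨_, hlip⟩, hhT ▸ T.injective, hhT ▸ T.isOpenMap, fun Ω hΩ hΩb => ?_⟩
  rcases Ω.eq_empty_or_nonempty with rfl | hne
  · refine ⟨0, 1, fun _ => 0, le_rfl, ENNReal.one_ne_top, stronglyMeasurable_const,
      fun _ => by simp, fun ε hε => ⟨id, ?_⟩⟩
    rw [IsLipApproximant, image_empty]
    refine ⟨⟨bijOn_id ∅, contDiff_id.contDiffOn, id, ⟨fun x _ => rfl, fun x _ => rfl⟩,
      contDiff_id.contDiffOn⟩, ⟨aemeasurable_id, by simp⟩, fun x hx => absurd hx (by simp), by simp⟩
  -- constants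
  set θ : ℝ := min 1 ((1 - (η : ℝ)) / 2) with hθdef
  have hη1 : (η : ℝ) < 1 := hη
  have hθ0 : 0 < θ := lt_min one_pos (by linarith)
  set η' : ℝ≥0 := ⟨η * (1 + θ), by positivity⟩ with hη'def
  have hη'1 : η' < 1 := by
    show (η : ℝ) * (1 + θ) < 1
    have : θ ≤ (1 - (η : ℝ)) / 2 := min_le_right _ _
    nlinarith [η.coe_nonneg]
  have hηη' : (η : ℝ) ≤ η' := le_mul_of_one_le_right η.coe_nonneg (by linarith)
  set A' : E →L[ℝ] E := (A : E →L[ℝ] E)
  set M : ℝ := ‖A'‖ * 2
  have hnorm : ∀ B : E →L[ℝ] E, ‖B‖ ≤ η' → ‖A'.comp (ContinuousLinearMap.id ℝ E + B)‖ ≤ M :=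
    fun B hB => (ContinuousLinearMap.opNorm_comp_le _ _).trans
      (mul_le_mul_of_nonneg_left ((norm_add_le _ _).trans (by
        linarith [ContinuousLinearMap.norm_id_le (𝕜 := ℝ) (E := E),
          show (η' : ℝ) < 1 from hη'1])) (norm_nonneg _))
  have hinjB : ∀ B : E →L[ℝ] E, ‖B‖ ≤ η' → Injective (A'.comp (ContinuousLinearMap.id ℝ E + B)) := by
    intro B hB
    refine (injective_iff_map_eq_zero _).2 fun v hv => ?_
    have hv' : v + B v = 0 := A.injective (by simpa [A'] using hv)
    have : ‖v‖ ≤ η' * ‖v‖ := by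
      calc ‖v‖ = ‖B v‖ := (congrArg norm (eq_neg_of_add_eq_zero_left hv')).trans (norm_neg _)
        _ ≤ η' * ‖v‖ := (B.le_opNorm v).trans (mul_le_mul_of_nonneg_right hB (norm_nonneg _))
    have h0 : ‖v‖ = 0 := by
      nlinarith [norm_nonneg v, show (η' : ℝ) < 1 from hη'1]
    exact norm_eq_zero.1 h0
  obtain ⟨B₀, hB₀, hmin⟩ := (isCompact_closedBall (0 : E →L[ℝ] E) η').exists_isMinOn
    ⟨0, mem_closedBall_self η'.coe_nonneg⟩
    (f := fun B => |(A'.comp (ContinuousLinearMap.id ℝ E + B)).det|)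
    ((ContinuousLinearMap.continuous_det.comp
      ((ContinuousLinearMap.compL ℝ E E E A').continuous.comp
        (continuous_const.add continuous_id))).abs.continuousOn)
  rw [mem_closedBall_zero_iff] at hB₀
  set c := |(A'.comp (ContinuousLinearMap.id ℝ E + B₀)).det|
  have hc : 0 < c := abs_pos.2 (by
    have h1 := hinjB B₀ hB₀
    exact ((LinearEquiv.ofBijective (A'.comp (ContinuousLinearMap.id ℝ E + B₀)).toLinearMap
      ⟨h1, LinearMap.injective_iff_surjective.1 h1⟩).isUnit_det').ne_zero)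
  set H : E → E →L[ℝ] E := fun x => A'.comp (ContinuousLinearMap.id ℝ E + fderiv ℝ φ x)
  refine ⟨M, ENNReal.ofReal c⁻¹, H, by positivity, ENNReal.ofReal_ne_top, ?_, fun x => hnorm _
    ((norm_fderiv_le_of_lipschitz ℝ hφ).trans hηη'), fun ε hε => ?_⟩
  · exact (ContinuousLinearMap.compL ℝ E E E A').continuous.comp_stronglyMeasurable
      (stronglyMeasurable_const.add (measurable_fderiv ℝ φ).stronglyMeasurable)
  -- the radius
  have hneC : (Ωᶜ : Set E).Nonempty := by
    rw [nonempty_compl]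
    exact fun hu => NormedSpace.unbounded_univ ℝ E (hu ▸ hΩb)
  set ε' : ℝ := ε / (‖A'‖ + 1)
  have hε' : 0 < ε' := by positivity
  obtain ⟨ρ₀, hρs, hρ1, hρg, hρ0, hρm⟩ := exists_smooth_radius hΩ hne
    (m := fun x => min (infDist x Ωᶜ) ε') ((continuous_infDist_pt _).min continuous_const).continuousOn
    fun x hx => lt_min ((hΩ.isClosed_compl.notMem_iff_infDist_pos hneC).1 (not_not_intro hx)) hε'
  set ρ := fun x => θ * ρ₀ x
  have hθ1 : θ ≤ 1 := min_le_left _ _
  have hρpos : ∀ x ∈ Ω, 0 < ρ x := fun x hx => mul_pos hθ0 (hρ0 x hx)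
  have hρgθ : ∀ y, ‖fderiv ℝ ρ y‖ ≤ θ / 4 := fun y => norm_fderiv_scale_le' hρs hρg hθ0 y
  have hρin : ∀ x ∈ Ω, closedBall x (ρ x) ⊆ Ω := by
    intro x hx z hz
    by_contra hzn
    have h1 := (infDist_le_dist_of_mem (s := Ωᶜ) hzn (x := x)).trans
      ((dist_comm _ _).le.trans (mem_closedBall.1 hz))
    have h2 := (hρm x hx).1.trans (min_le_left _ _)
    have h3 := hρ0 x hx
    have hθ2 : θ ≤ 1 / 2 := (min_le_right _ _).trans (by linarith [η.coe_nonneg])
    simp only [ρ] at h1
    nlinarith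
  have hSd := hasSobolevDeriv_lipschitz hφ hΩ hΩb
  obtain ⟨t, ht0, ht1, htd⟩ := exists_mollify_close hΩ hΩb hφ.continuous.continuousOn le_rfl
    ENNReal.one_ne_top hSd (contDiff_const.mul hρs)
    (fun y => (mul_le_mul_of_nonneg_left (hρ1 y) hθ0.le).trans (by simpa using hθ1))
    (fun y => (hρgθ y).trans (by linarith)) hρpos hρin
    (δ := ENNReal.ofReal ε / (ENNReal.ofReal ‖A'‖ + 1))
    (ENNReal.div_pos (by simpa using hε.not_ge) (by simp))
  set σ : E → ℝ := Ω.indicator fun y => t * ρ y with hσdef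
  set Φ : E → E := fun x => ∫ y, moll E y • φ (x + σ x • y)
  have hσlip : ∀ a b, |σ a - σ b| ≤ θ * dist a b := by
    have hone : ∀ a ∈ Ω, ∀ b ∉ Ω, 0 ≤ t * ρ a ∧ t * ρ a ≤ θ * dist a b := by
      intro a ha b hb
      refine ⟨(mul_pos ht0 (hρpos a ha)).le, (mul_le_of_le_one_left (hρpos a ha).le ht1).trans ?_⟩
      exact mul_le_mul_of_nonneg_left
        (((hρm a ha).1.trans (min_le_left _ _)).trans (infDist_le_dist_of_mem hb)) hθ0.le
    intro a b
    by_cases ha : a ∈ Ω <;> by_cases hb : b ∈ Ω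
    · rw [hσdef, indicator_of_mem ha, indicator_of_mem hb, ← mul_sub, abs_mul, abs_of_pos ht0]
      have h1 := convex_univ.norm_image_sub_le_of_norm_fderiv_le
        (fun w _ => ((contDiff_const.mul hρs).differentiable (by simp)) w) (fun w _ => hρgθ w)
        (mem_univ b) (mem_univ a)
      rw [Real.norm_eq_abs, ← dist_eq_norm] at h1
      refine (mul_le_of_le_one_left (abs_nonneg _) ht1).trans (h1.trans ?_)
      nlinarith [dist_nonneg (x := a) (y := b)]
    · rw [hσdef, indicator_of_mem ha, indicator_of_notMem hb, sub_zero,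
        abs_of_nonneg (hone a ha b hb).1]
      exact (hone a ha b hb).2
    · rw [hσdef, indicator_of_notMem ha, indicator_of_mem hb, zero_sub, abs_neg,
        abs_of_nonneg (hone b hb a ha).1, dist_comm]
      exact (hone b hb a ha).2
    · rw [hσdef, indicator_of_notMem ha, indicator_of_notMem hb, sub_zero, abs_zero]
      positivity
  have hΦi : ∀ x, Integrable fun y => moll E y • φ (x + σ x • y) := fun x =>
    ((moll_contDiff (E := E)).continuous.smul (hφ.continuous.comp (by fun_prop))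
      ).integrable_of_hasCompactSupport (bump E).hasCompactSupport_normed.smul_right
  have hΦlip : LipschitzWith η' Φ := LipschitzWith.of_dist_le_mul fun a b => by
    rw [dist_eq_norm, ← integral_sub (hΦi a) (hΦi b)]
    refine (norm_integral_le_of_norm_le (g := fun y => moll E y * (η' * dist a b))
      (integrable_moll.mul_const _) (Eventually.of_forall fun y => ?_)).trans (le_of_eq ?_)
    · rw [← smul_sub, norm_smul, Real.norm_of_nonneg (moll_nonneg y)]
      rcases lt_or_ge 1 ‖y‖ with hy | hy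
      · simp [moll_eq_zero hy]
      refine mul_le_mul_of_nonneg_left ((hφ.norm_sub_le _ _).trans ?_) (moll_nonneg y)
      show (η : ℝ) * ‖_‖ ≤ (η : ℝ) * (1 + θ) * dist a b
      rw [mul_assoc]
      refine mul_le_mul_of_nonneg_left ?_ η.coe_nonneg
      rw [show a + σ a • y - (b + σ b • y) = (a - b) + (σ a - σ b) • y by rw [sub_smul]; abel]
      refine (norm_add_le _ _).trans ?_
      rw [norm_smul, Real.norm_eq_abs, ← dist_eq_norm]
      nlinarith [hσlip a b, abs_nonneg (σ a - σ b), norm_nonneg y]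
    · rw [integral_mul_const, integral_moll, one_mul]
  have hΦout : ∀ x ∉ Ω, Φ x = φ x := fun x hx => by
    simp only [Φ, hσdef, indicator_of_notMem hx, zero_smul, add_zero]
    rw [integral_smul_const, integral_moll, one_smul]
  set u := Ω.indicator φ
  set τ := fun y => t * ρ y
  have hτs : ContDiff ℝ ∞ τ := contDiff_const.mul (contDiff_const.mul hρs)
  have hΦin : EqOn Φ (mollify τ u) Ω := by
    intro x hx
    rw [mollify, integral_comp_ker (mul_pos ht0 (hρpos x hx))]
    refine integral_congr_ae (Eventually.of_forall fun y => ?_)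
    simp only [hσdef, indicator_of_mem hx]
    rcases lt_or_ge 1 ‖y‖ with hy | hy
    · simp [moll_eq_zero hy]
    have hmem : x + (t * ρ x) • y ∈ Ω := hρin x hx (by
      rw [mem_closedBall, dist_eq_norm, add_sub_cancel_left, norm_smul,
        Real.norm_of_nonneg (mul_pos ht0 (hρpos x hx)).le]
      exact (mul_le_of_le_one_right (mul_pos ht0 (hρpos x hx)).le hy).trans
        (mul_le_of_le_one_left (hρpos x hx).le ht1))
    simp only [u, τ, indicator_of_mem hmem]
  obtain ⟨K, hK⟩ := exists_homeomorph_perturb A hη'1 hΦlip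
  have himg : K '' Ω = h '' Ω := by
    have h1 : K '' Ωᶜ = T '' Ωᶜ := image_congr fun x hx => by rw [hK, hT, hΦout x hx]
    rw [image_compl_eq K.bijective, image_compl_eq T.bijective, compl_inj_iff] at h1
    rw [h1, hhT]
  have hui : Integrable u :=
    IntegrableOn.integrable_indicator (memLp_one_iff_integrable.1 hSd.1) hΩ.measurableSet
  have hΦs : ContDiffOn ℝ ∞ Φ Ω :=
    (((contDiffOn_mollify hτs (fun y => by
      show t * (θ * ρ₀ y) < 2
      nlinarith [hρ1 y, mul_pos ht0 hθ0, mul_le_one₀ ht1 hθ0.le hθ1]) hui).mono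
      fun x hx => mul_pos ht0 (hρpos x hx))).congr hΦin
  have hΦd : ∀ x ∈ Ω, HasFDerivAt Φ (fderiv ℝ Φ x) x := fun x hx =>
    ((hΦs.differentiableOn (by simp)).differentiableAt (hΩ.mem_nhds hx)).hasFDerivAt
  have hKd : ∀ x ∈ Ω, HasFDerivAt (K : E → E)
      (A'.comp (ContinuousLinearMap.id ℝ E + fderiv ℝ Φ x)) x := fun x hx => by
    rw [show (K : E → E) = fun y => A (y + Φ y) from funext hK]
    exact A'.hasFDerivAt.comp x ((hasFDerivAt_id x).add (hΦd x hx))
  have hΦb : ∀ x, ‖fderiv ℝ Φ x‖ ≤ η' := fun x => norm_fderiv_le_of_lipschitz ℝ hΦlip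
  have hKs : ContDiffOn ℝ ∞ (K : E → E) Ω := by
    rw [show (K : E → E) = fun y => A (y + Φ y) from funext hK]
    exact A.contDiff.comp_contDiffOn (contDiff_id.contDiffOn.add hΦs)
  refine ⟨K, ⟨himg ▸ K.injective.injOn.bijOn_image, hKs, K.symm, ?_, ?_⟩, ?_, fun x hx => ⟨?_, ?_⟩, ?_⟩
  · exact ⟨fun x _ => K.symm_apply_apply x, fun x _ => K.apply_symm_apply x⟩
  · rw [← himg]
    rintro w ⟨x, hx, rfl⟩
    have hx' : K.toOpenPartialHomeomorph.symm (K x) = x := K.symm_apply_apply x
    have h1 := hinjB _ (hΦb x)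
    refine (K.toOpenPartialHomeomorph.contDiffAt_symm (a := K x) (f₀' :=
      (LinearEquiv.ofBijective (A'.comp (ContinuousLinearMap.id ℝ E + fderiv ℝ Φ x)).toLinearMap
        ⟨h1, LinearMap.injective_iff_surjective.1 h1⟩).toContinuousLinearEquiv) (by simp) ?_ ?_
      ).contDiffWithinAt
    · rw [hx']; exact hKd x hx
    · rw [hx']; exact hKs.contDiffAt (hΩ.mem_nhds hx)
  · rw [← himg]
    refine ⟨K.continuous.aemeasurable, Measure.le_iff.2 fun s hs => ?_⟩
    rw [Measure.map_apply K.continuous.measurable hs, Measure.smul_apply,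
      Measure.restrict_apply hs, Measure.restrict_apply (K.continuous.measurable hs), smul_eq_mul]
    have e := lintegral_image_eq_lintegral_abs_det_fderiv_mul (volume : Measure E) hΩ.measurableSet
      (fun x hx => (hKd x hx).hasFDerivWithinAt) K.injective.injOn (s.indicator 1)
    rw [lintegral_indicator_one hs, Measure.restrict_apply hs] at e
    rw [e, ← lintegral_const_mul' _ _ ENNReal.ofReal_ne_top,
      ← Measure.restrict_apply (K.continuous.measurable hs),
      ← lintegral_indicator_one (K.continuous.measurable hs)]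
    refine lintegral_mono fun x => ?_
    rw [← mul_assoc, ← ENNReal.ofReal_mul (inv_nonneg.2 hc.le)]
    refine le_trans ?_ (le_mul_of_one_le_left zero_le (ENNReal.one_le_ofReal.2 ?_))
    · exact (indicator_comp_right (g := (1 : E → ℝ≥0∞)) (f := (K : E → E))).le
    · rw [le_inv_mul_iff₀ hc, mul_one]
      exact hmin (mem_closedBall_zero_iff.2 (hΦb x))
  · rw [hK, heq, ← map_sub, add_sub_add_left_eq_sub]
    have h1 : ‖Φ x - φ x‖ ≤ ε' := by
      have h2 : Φ x - φ x = ∫ y, moll E y • (φ (x + σ x • y) - φ x) := by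
        simp only [smul_sub]
        rw [integral_sub (hΦi x) (integrable_moll.smul_const _), integral_smul_const, integral_moll,
          one_smul]
      rw [h2]
      refine (norm_integral_le_of_norm_le (g := fun y => moll E y * ε')
        (integrable_moll.mul_const _) (Eventually.of_forall fun y => ?_)).trans_eq
        (by rw [integral_mul_const, integral_moll, one_mul])
      rw [norm_smul, Real.norm_of_nonneg (moll_nonneg y)]
      rcases lt_or_ge 1 ‖y‖ with hy | hy
      · simp [moll_eq_zero hy]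
      refine mul_le_mul_of_nonneg_left ?_ (moll_nonneg y)
      refine (hφ.norm_sub_le _ _).trans ?_
      rw [add_sub_cancel_left, norm_smul, hσdef, indicator_of_mem hx,
        Real.norm_of_nonneg (mul_pos ht0 (hρpos x hx)).le]
      refine (mul_le_of_le_one_left (mul_nonneg (mul_pos ht0 (hρpos x hx)).le (norm_nonneg _)) hη1.le).trans ?_
      refine (mul_le_of_le_one_right (mul_pos ht0 (hρpos x hx)).le hy).trans ?_
      refine (mul_le_of_le_one_left (hρpos x hx).le ht1).trans ?_
      exact (mul_le_of_le_one_left (hρ0 x hx).le hθ1).trans ((hρm x hx).1.trans (min_le_right _ _))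
    refine (A'.le_opNorm _).trans ((mul_le_mul_of_nonneg_left h1 (norm_nonneg _)).trans ?_)
    simp only [ε']
    rw [mul_div_assoc', div_le_iff₀ (by positivity)]
    nlinarith [norm_nonneg A']
  · rw [(hKd x hx).fderiv]
    exact hnorm _ (hΦb x)
  · refine (eLpNorm_le_nnreal_smul_eLpNorm_of_ae_le_mul (c := ‖A'‖₊ + 1)
      (g := fun x => fderiv ℝ (mollify τ u) x - fderiv ℝ φ x)
      (ae_restrict_of_forall_mem hΩ.measurableSet fun x hx => ?_) 1).trans ?_
    · rw [(hKd x hx).fderiv, show fderiv ℝ (mollify τ u) x = fderiv ℝ Φ x from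
        (Filter.EventuallyEq.fderiv_eq (eventually_of_mem (hΩ.mem_nhds hx) hΦin)).symm]
      show ‖A'.comp _ - A'.comp _‖₊ ≤ _
      rw [← ContinuousLinearMap.comp_sub, add_sub_add_left_eq_sub]
      exact (ContinuousLinearMap.opNNNorm_comp_le _ _).trans
        (mul_le_mul_of_nonneg_right le_self_add zero_le)
    · refine (mul_le_mul_of_nonneg_left (le_add_self.trans htd.le) zero_le).trans (le_of_eq ?_)
      rw [show ((‖A'‖₊ + 1 : ℝ≥0) : ℝ≥0∞) = ENNReal.ofReal ‖A'‖ + 1 by
        rw [ofReal_norm, ENNReal.coe_add, ENNReal.coe_one, enorm_eq_nnnorm]]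
      rw [ENNReal.mul_div_cancel (by simp) (by simp)]

/-- Tame maps are good. -/
theorem IsTame.isGood {h : E → E} (hh : IsTame h) : IsGood h := by
  obtain ⟨l, hl, rfl⟩ := hh
  induction l with
  | nil => exact isGood_id
  | cons k l ih =>
    exact (isGood_factor (hl k List.mem_cons_self)).comp
      (ih fun j hj => hl j (List.mem_cons_of_mem _ hj))

end Vale.Agent.P073
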