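import Vale.Agent.P073.Tame.Pull

/-!
# Approximability is stable under inner composition with approximable bi-Lipschitz maps
-/

namespace Vale.Agent.P073

open MeasureTheory Metric Set Function Filter
open scoped ContDiff Topology ENNReal

set_option linter.unusedSectionVars false

variable {E : Type} [NormedAddCommGroup E] [InnerProductSpace ℝ E] [FiniteDimensional ℝ E]
  [MeasureSpace E] [BorelSpace E] [(volume : Measure E).IsAddHaarMeasure] [Nontrivial E]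

/-- A diffeomorphism of `Ω` onto `h '' Ω` which is uniformly Lipschitz and close to `h`. -/
def IsLipApproximant (Ω : Set E) (h : E → E) (M : ℝ) (C : ℝ≥0∞) (H : E → E →L[ℝ] E) (ε : ℝ)
    (k : E → E) : Prop :=
  IsDiffeo Ω (h '' Ω) k ∧ MapLE C Ω (h '' Ω) k ∧
    (∀ x ∈ Ω, ‖k x - h x‖ ≤ ε ∧ ‖fderiv ℝ k x‖ ≤ M) ∧
    eLpNorm (fun x => fderiv ℝ k x - H x) 1 (volume.restrict Ω) ≤ ENNReal.ofReal ε

/-- `h` has uniformly Lipschitz diffeomorphic approximants on `Ω` with derivatives tending to `H`. -/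
def IsLipApprox (Ω : Set E) (h : E → E) (M : ℝ) (C : ℝ≥0∞) (H : E → E →L[ℝ] E) : Prop :=
  0 ≤ M ∧ C ≠ ⊤ ∧ StronglyMeasurable H ∧ (∀ x, ‖H x‖ ≤ M) ∧
    ∀ ε > 0, ∃ k, IsLipApproximant Ω h M C H ε k

/-- Injective open Lipschitz maps with such approximants on every bounded open set. -/
def IsGood (h : E → E) : Prop :=
  (∃ L, LipschitzWith L h) ∧ Injective h ∧ IsOpenMap h ∧
    ∀ Ω : Set E, IsOpen Ω → Bornology.IsBounded Ω → ∃ M C H, IsLipApprox Ω h M C H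

theorem IsLipApprox.mapLE {Ω : Set E} {h : E → E} {M : ℝ} {C : ℝ≥0∞} {H : E → E →L[ℝ] E}
    (hA : IsLipApprox Ω h M C H) (hΩ : IsOpen Ω) (hh : Continuous h) (ho : IsOpenMap h) :
    MapLE C Ω (h '' Ω) h := by
  obtain ⟨-, hC, -, -, hk⟩ := hA
  choose k hk using fun n : ℕ => hk (1 / (n + 1 : ℝ)) (by positivity)
  refine mapLE_of_limit hC (ho _ hΩ) hh hΩ.measurableSet (mapsTo_image h Ω) (fun n => (hk n).2.1)
    fun x hx => tendsto_iff_norm_sub_tendsto_zero.2 ?_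
  exact squeeze_zero (fun n => norm_nonneg _) (fun n => ((hk n).2.2.1 x hx).1)
    (tendsto_one_div_add_atTop_nhds_zero_nat (𝕜 := ℝ))

/-- Composition of a smooth map with an approximant of `h`, compared with `(f ∘ h, G ∘ h · H)`. -/
theorem exists_comp_estimate {Ω : Set E} {h : E → E} {M : ℝ} {C : ℝ≥0∞} {H : E → E →L[ℝ] E}
    (hA : IsLipApprox Ω h M C H) (hΩ : IsOpen Ω) (hΩb : Bornology.IsBounded Ω) (hh : Continuous h)
    (ho : IsOpenMap h) {p : ℝ≥0∞} (hp : 1 ≤ p) (hp' : p ≠ ⊤) {f : E → E} {G : E → E →L[ℝ] E}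
    (hf : StronglyMeasurable f) (hG : StronglyMeasurable G)
    (hfp : MemLp f p (volume.restrict (h '' Ω))) (hGp : MemLp G p (volume.restrict (h '' Ω)))
    {δ : ℝ≥0∞} (hδ : 0 < δ) :
    ∃ ε > (0 : ℝ), ∀ k, IsLipApproximant Ω h M C H ε k → ∀ F : E → E,
      ContDiffOn ℝ ∞ F (h '' Ω) →
      eLpNorm (fun x => F (k x) - f (h x)) p (volume.restrict Ω) +
        eLpNorm (fun x => fderiv ℝ (F ∘ k) x - (G (h x)).comp (H x)) p (volume.restrict Ω) ≤
      (ENNReal.ofReal M + 1) * (C + 1) *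
        (eLpNorm (fun x => F x - f x) p (volume.restrict (h '' Ω)) +
          eLpNorm (fun x => fderiv ℝ F x - G x) p (volume.restrict (h '' Ω))) + δ := by
  classical
  have hΩ' : IsOpen (h '' Ω) := ho _ hΩ
  have hm := hA.mapLE hΩ hh ho
  obtain ⟨hM, hC, hH, hHM, -⟩ := hA
  set fi := (h '' Ω).indicator f with hfi
  set Gi := (h '' Ω).indicator G with hGi
  have hfim : StronglyMeasurable fi := hf.indicator hΩ'.measurableSet
  have hGim : StronglyMeasurable Gi := hG.indicator hΩ'.measurableSet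
  have hfip : MemLp fi p := (memLp_indicator_iff_restrict hΩ'.measurableSet).2 hfp
  have hGip : MemLp Gi p := (memLp_indicator_iff_restrict (f := G) hΩ'.measurableSet).2 hGp
  set K : ℝ≥0∞ := ENNReal.ofReal M + 1
  have hK : K ≠ ⊤ := by simp [K]
  have hδ1 : 0 < δ / 3 := ENNReal.div_pos hδ.ne' (by norm_num)
  obtain ⟨ε₁, hε₁, h1⟩ := exists_close_comp hΩ.measurableSet hΩb hC hm hfim hp hp' hfip hδ1
  obtain ⟨ε₂, hε₂, h2⟩ := exists_close_comp hΩ.measurableSet hΩb hC hm hGim hp hp' hGip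
    (ENNReal.div_pos hδ1.ne' hK)
  obtain ⟨ε₃, hε₃, h3⟩ := exists_small_product hΩb hC hm hGim hp hp' hGip
    (show 0 ≤ 2 * M by linarith) hδ1
  refine ⟨min ε₁ (min ε₂ ε₃), lt_min hε₁ (lt_min hε₂ hε₃), fun k hk F hF => ?_⟩
  obtain ⟨⟨hbij, hks, -⟩, hmk, hpt, hL1⟩ := hk
  set w₀ := (h '' Ω).indicator fun x => F x - f x with hw₀
  set w₁ := (h '' Ω).indicator fun x => fderiv ℝ F x - G x with hw₁
  have hw₀m : StronglyMeasurable w₀ := by
    rw [hw₀, show (fun x => F x - f x) = F - f from rfl, Set.indicator_sub']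
    refine StronglyMeasurable.sub ?_ hfim
    rw [← Set.piecewise_eq_indicator]
    exact (hF.continuousOn.measurable_piecewise (g := fun _ => (0 : E)) continuousOn_const
      hΩ'.measurableSet).stronglyMeasurable
  have hw₁m : StronglyMeasurable w₁ :=
    ((measurable_fderiv ℝ F).stronglyMeasurable.sub hG).indicator hΩ'.measurableSet
  have hDk : AEStronglyMeasurable (fderiv ℝ k) (volume.restrict Ω) :=
    (measurable_fderiv ℝ k).stronglyMeasurable.aestronglyMeasurable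
  have hcomp : ∀ {l : E → E}, MapLE C Ω (h '' Ω) l → ∀ {W : Type} [NormedAddCommGroup W]
      {v : E → W}, StronglyMeasurable v →
      AEStronglyMeasurable (fun x => v (l x)) (volume.restrict Ω) := fun hl _ _ v hv =>
    (hv.aestronglyMeasurable).comp_aemeasurable hl.1
  have a0 : eLpNorm (fun x => F (k x) - f (h x)) p (volume.restrict Ω) ≤
      (C + 1) * eLpNorm (fun x => F x - f x) p (volume.restrict (h '' Ω)) + δ / 3 := by
    have e : eLpNorm (fun x => F (k x) - f (h x)) p (volume.restrict Ω) =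
        eLpNorm ((fun x => w₀ (k x)) + fun x => fi (k x) - fi (h x)) p (volume.restrict Ω) := by
      refine eLpNorm_congr_ae (ae_restrict_of_forall_mem hΩ.measurableSet fun x hx => ?_)
      simp only [Pi.add_apply, hw₀, hfi, indicator_of_mem (hbij.mapsTo hx),
        indicator_of_mem (mem_image_of_mem h hx)]
      abel
    rw [e]
    refine (eLpNorm_add_le (hcomp hmk hw₀m) ((hcomp hmk hfim).sub (hcomp hm hfim)) hp).trans
      (add_le_add ((hmk.eLpNorm_le hC hw₀m hp hp').trans ?_)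
        (h1 k hmk fun x hx => (hpt x hx).1.trans (min_le_left _ _)))
    rw [hw₀, eLpNorm_indicator_eq_eLpNorm_restrict hΩ'.measurableSet,
      Measure.restrict_restrict hΩ'.measurableSet, inter_self]
  set T : E → E →L[ℝ] E := fun x => fderiv ℝ k x - H x with hT
  have hb : ∀ x ∈ Ω, ‖fderiv ℝ (F ∘ k) x - (G (h x)).comp (H x)‖ₑ ≤
      ‖K * ‖w₁ (k x)‖ₑ + (K * ‖Gi (k x) - Gi (h x)‖ₑ + ‖(Gi (h x)).comp (T x)‖ₑ)‖ₑ := by
    intro x hx
    have hd : HasFDerivAt (F ∘ k) ((fderiv ℝ F (k x)).comp (fderiv ℝ k x)) x :=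
      ((hF.differentiableOn (by simp)).differentiableAt
        (hΩ'.mem_nhds (hbij.mapsTo hx))).hasFDerivAt.comp x
        ((hks.differentiableOn (by simp)).differentiableAt (hΩ.mem_nhds hx)).hasFDerivAt
    rw [hd.fderiv, enorm_eq_self]
    simp only [hw₁, hGi, hT, indicator_of_mem (hbij.mapsTo hx),
      indicator_of_mem (mem_image_of_mem h hx)]
    have e : (fderiv ℝ F (k x)).comp (fderiv ℝ k x) - (G (h x)).comp (H x) =
        (fderiv ℝ F (k x) - G (k x)).comp (fderiv ℝ k x) +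
          ((G (k x) - G (h x)).comp (fderiv ℝ k x) + (G (h x)).comp (fderiv ℝ k x - H x)) := by
      simp only [ContinuousLinearMap.sub_comp, ContinuousLinearMap.comp_sub]
      abel
    rw [e]
    have hk1 : ‖fderiv ℝ k x‖ₑ ≤ K := by
      rw [← ofReal_norm]
      exact (ENNReal.ofReal_le_ofReal (hpt x hx).2).trans le_self_add
    have hop : ∀ (a b : E →L[ℝ] E), ‖a.comp b‖ₑ ≤ ‖b‖ₑ * ‖a‖ₑ := fun a b => by
      rw [← ofReal_norm, ← ofReal_norm, ← ofReal_norm, ← ENNReal.ofReal_mul (norm_nonneg _),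
        mul_comm]
      exact ENNReal.ofReal_le_ofReal (ContinuousLinearMap.opNorm_comp_le _ _)
    refine (enorm_add_le _ _).trans (add_le_add ((hop _ _).trans
      (mul_le_mul_of_nonneg_right hk1 zero_le)) ((enorm_add_le _ _).trans (add_le_add
      ((hop _ _).trans (mul_le_mul_of_nonneg_right hk1 zero_le)) le_rfl)))
  have m1 : AEStronglyMeasurable (fun x => K * ‖w₁ (k x)‖ₑ) (volume.restrict Ω) :=
    ((hcomp hmk hw₁m).enorm.const_mul K).aestronglyMeasurable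
  have m2 : AEStronglyMeasurable (fun x => K * ‖Gi (k x) - Gi (h x)‖ₑ) (volume.restrict Ω) :=
    (((hcomp hmk hGim).sub (hcomp hm hGim)).enorm.const_mul K).aestronglyMeasurable
  have hTm : AEStronglyMeasurable T (volume.restrict Ω) := hDk.sub hH.aestronglyMeasurable
  have m3 : AEStronglyMeasurable (fun x => ‖(Gi (h x)).comp (T x)‖ₑ) (volume.restrict Ω) :=
    ((ContinuousLinearMap.compL ℝ E E E).aestronglyMeasurable_comp₂ (hcomp hm hGim) hTm
      ).enorm.aestronglyMeasurable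
  have a1 : eLpNorm (fun x => fderiv ℝ (F ∘ k) x - (G (h x)).comp (H x)) p (volume.restrict Ω) ≤
      K * ((C + 1) * eLpNorm (fun x => fderiv ℝ F x - G x) p (volume.restrict (h '' Ω))) +
        (δ / 3 + δ / 3) := by
    refine (eLpNorm_mono_enorm_ae (ae_restrict_of_forall_mem hΩ.measurableSet hb)).trans
      ((eLpNorm_add_le m1 (m2.add m3) hp).trans (add_le_add
        ((eLpNorm_const_mul_ennreal_le hK).trans (mul_le_mul_of_nonneg_left ?_ zero_le))
        ((eLpNorm_add_le m2 m3 hp).trans (add_le_add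
          ((eLpNorm_const_mul_ennreal_le hK).trans ?_) ?_))))
    · rw [eLpNorm_enorm]
      refine (hmk.eLpNorm_le hC hw₁m hp hp').trans ?_
      rw [hw₁, eLpNorm_indicator_eq_eLpNorm_restrict hΩ'.measurableSet,
        Measure.restrict_restrict hΩ'.measurableSet, inter_self]
    · rw [eLpNorm_enorm]
      refine (mul_le_mul_of_nonneg_left (h2 k hmk fun x hx =>
        (hpt x hx).1.trans ((min_le_right _ _).trans (min_le_left _ _))) zero_le).trans (le_of_eq ?_)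
      rw [ENNReal.mul_div_cancel (by simp [K]) hK]
    · rw [eLpNorm_enorm]
      exact h3 T hTm (ae_restrict_of_forall_mem hΩ.measurableSet fun x hx =>
        (norm_sub_le _ _).trans (by linarith [(hpt x hx).2, hHM x]))
        (hL1.trans (ENNReal.ofReal_le_ofReal ((min_le_right _ _).trans (min_le_right _ _))))
  set X := eLpNorm (fun x => F x - f x) p (volume.restrict (h '' Ω))
  set Y := eLpNorm (fun x => fderiv ℝ F x - G x) p (volume.restrict (h '' Ω))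
  refine (add_le_add a0 a1).trans ?_
  calc (C + 1) * X + δ / 3 + (K * ((C + 1) * Y) + (δ / 3 + δ / 3))
      = (C + 1) * X + K * ((C + 1) * Y) + (δ / 3 + δ / 3 + δ / 3) := by ring
    _ ≤ K * (C + 1) * (X + Y) + δ := by
        refine add_le_add ?_ (ENNReal.add_thirds δ).le
        rw [mul_add, mul_assoc, mul_assoc]
        exact add_le_add (le_mul_of_one_le_left zero_le le_add_self) le_rfl

theorem memLp_comp_fields {Ω : Set E} {h : E → E} {M : ℝ} {C : ℝ≥0∞} {H : E → E →L[ℝ] E}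
    (hA : IsLipApprox Ω h M C H) (hΩ : IsOpen Ω) (hh : Continuous h) (ho : IsOpenMap h)
    {p : ℝ≥0∞} (hp : 1 ≤ p) (hp' : p ≠ ⊤) {f : E → E} {G : E → E →L[ℝ] E}
    (hf : StronglyMeasurable f) (hG : StronglyMeasurable G)
    (hfp : MemLp f p (volume.restrict (h '' Ω))) (hGp : MemLp G p (volume.restrict (h '' Ω))) :
    MemLp (fun x => f (h x)) p (volume.restrict Ω) ∧
      MemLp (fun x => (G (h x)).comp (H x)) p (volume.restrict Ω) := by
  have hm := hA.mapLE hΩ hh ho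
  obtain ⟨hM, hC, hH, hHM, -⟩ := hA
  have hC1 : C + 1 ≠ ⊤ := by simp [hC]
  refine ⟨⟨hf.aestronglyMeasurable.comp_aemeasurable hm.1,
    (hm.eLpNorm_le hC hf hp hp').trans_lt (ENNReal.mul_lt_top hC1.lt_top hfp.2)⟩, ?_⟩
  have h2 : MemLp (fun x => G (h x)) p (volume.restrict Ω) :=
    ⟨hG.aestronglyMeasurable.comp_aemeasurable hm.1,
      (hm.eLpNorm_le hC hG hp hp').trans_lt (ENNReal.mul_lt_top hC1.lt_top hGp.2)⟩
  refine h2.of_le_mul (c := M)
    ((ContinuousLinearMap.compL ℝ E E E).aestronglyMeasurable_comp₂ h2.1 hH.aestronglyMeasurable)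
    (Eventually.of_forall fun x => ?_)
  rw [mul_comm]
  exact (ContinuousLinearMap.opNorm_comp_le _ _).trans
    (mul_le_mul_of_nonneg_left (hHM x) (norm_nonneg _))

theorem IsDiffeo.comp {Ω Ω' Λ : Set E} {k F : E → E} (hF : IsDiffeo Ω' Λ F)
    (hk : IsDiffeo Ω Ω' k) : IsDiffeo Ω Λ (F ∘ k) := by
  obtain ⟨hFb, hFs, F', hFi, hFs'⟩ := hF
  obtain ⟨hkb, hks, k', hki, hks'⟩ := hk
  have hF'm : MapsTo F' Λ Ω' := fun w hw => by
    obtain ⟨x, hx, rfl⟩ := hFb.surjOn hw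
    rwa [hFi.1 hx]
  exact ⟨hFb.comp hkb, hFs.comp hks hkb.mapsTo, k' ∘ F',
    ⟨fun x hx => by simp [hFi.1 (hkb.mapsTo hx), hki.1 hx],
      fun w hw => by simp [hki.2 (hF'm hw), hFi.2 hw]⟩, hks'.comp hFs' hF'm⟩

/-- Composition with a good map preserves approximability. -/
theorem exists_approximable_comp {Ω : Set E} {h : E → E} (hh : IsGood h) (hΩ : IsOpen Ω)
    (hΩb : Bornology.IsBounded Ω) {Λ : Set E} {p : ℝ≥0∞} (hp : 1 ≤ p) (hp' : p ≠ ⊤)
    {f : E → E} {G : E → E →L[ℝ] E} (hS : HasSobolevDeriv (h '' Ω) p f G)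
    (happ : IsDiffeoApproximable (h '' Ω) Λ p f G) :
    ∃ G', HasSobolevDeriv Ω p (f ∘ h) G' ∧ IsDiffeoApproximable Ω Λ p (f ∘ h) G' := by
  obtain ⟨⟨L, hL⟩, hinj, ho, hall⟩ := hh
  obtain ⟨M, C, H, hA⟩ := hall Ω hΩ hΩb
  have hm := hA.mapLE hΩ hL.continuous ho
  obtain ⟨hfp, hGp, -⟩ := hS
  set f₀ := hfp.1.mk
  set G₀ := hGp.1.mk
  have hf₀ : f =ᵐ[volume.restrict (h '' Ω)] f₀ := hfp.1.ae_eq_mk
  have hG₀ : G =ᵐ[volume.restrict (h '' Ω)] G₀ := hGp.1.ae_eq_mk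
  set G' := fun x => (G₀ (h x)).comp (H x)
  have hfh : (f ∘ h) =ᵐ[volume.restrict Ω] fun x => f₀ (h x) := hm.ae_eq hf₀
  obtain ⟨hmem1, hmem2⟩ := memLp_comp_fields hA hΩ hL.continuous ho hp hp'
    hfp.1.stronglyMeasurable_mk hGp.1.stronglyMeasurable_mk (hfp.ae_eq hf₀) (hGp.ae_eq hG₀)
  have key : IsDiffeoApproximable Ω Λ p (f ∘ h) G' := by
    intro δ hδ
    set δ' := min δ 1 / 2 with hδ'_def
    have hδ' : 0 < δ' := ENNReal.half_pos (lt_min hδ one_pos).ne'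
    have hδ'lt : δ' < δ := (ENNReal.half_lt_self (lt_min hδ one_pos).ne'
      (ne_top_of_le_ne_top ENNReal.one_ne_top (min_le_right _ _))).trans_le (min_le_left _ _)
    obtain ⟨ε, hε, hest⟩ := exists_comp_estimate hA hΩ hΩb hL.continuous ho hp hp'
      hfp.1.stronglyMeasurable_mk hGp.1.stronglyMeasurable_mk (hfp.ae_eq hf₀) (hGp.ae_eq hG₀)
      (ENNReal.half_pos hδ'.ne')
    obtain ⟨-, hC, -, -, hk⟩ := hA
    obtain ⟨k, hk⟩ := hk ε hε
    set K := (ENNReal.ofReal M + 1) * (C + 1)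
    have hK : K ≠ ⊤ := ENNReal.mul_ne_top (by simp) (by simp [hC])
    obtain ⟨F, hF, hlt⟩ := happ (δ' / 2 / K) (ENNReal.div_pos (ENNReal.half_pos hδ'.ne').ne' hK)
    refine ⟨F ∘ k, hF.comp hk.1, ?_⟩
    have e1 : eLpNorm (fun x => (F ∘ k) x - (f ∘ h) x) p (volume.restrict Ω) =
        eLpNorm (fun x => F (k x) - f₀ (h x)) p (volume.restrict Ω) := eLpNorm_congr_ae (by
      filter_upwards [hfh] with x hx; rw [hx]; rfl)
    have e2 : eLpNorm (fun x => F x - f x) p (volume.restrict (h '' Ω)) =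
        eLpNorm (fun x => F x - f₀ x) p (volume.restrict (h '' Ω)) := eLpNorm_congr_ae (by
      filter_upwards [hf₀] with x hx; rw [hx])
    have e3 : eLpNorm (fun x => fderiv ℝ F x - G x) p (volume.restrict (h '' Ω)) =
        eLpNorm (fun x => fderiv ℝ F x - G₀ x) p (volume.restrict (h '' Ω)) := eLpNorm_congr_ae (by
      filter_upwards [hG₀] with x hx; rw [hx])
    rw [e2, e3] at hlt
    rw [e1]
    refine ((hest k hk F hF.2.1).trans ?_).trans_lt hδ'lt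
    refine (add_le_add (mul_le_mul_of_nonneg_left hlt.le zero_le) le_rfl).trans (le_of_eq ?_)
    rw [ENNReal.mul_div_cancel (by simp [K]) hK, ENNReal.add_halves]
  exact ⟨G', hasSobolevDeriv_of_approximable hΩ hΩb hp hp' (hmem1.ae_eq hfh.symm) hmem2 key, key⟩

/-- The identity is good. -/
theorem isGood_id : IsGood (id : E → E) := by
  refine ⟨⟨1, LipschitzWith.id⟩, injective_id, IsOpenMap.id, fun Ω hΩ hΩb =>
    ⟨1, 1, fun _ => ContinuousLinearMap.id ℝ E, zero_le_one, ENNReal.one_ne_top,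
      stronglyMeasurable_const, fun _ => ContinuousLinearMap.norm_id_le, fun ε hε => ⟨id, ?_⟩⟩⟩
  rw [IsLipApproximant, image_id]
  refine ⟨⟨bijOn_id Ω, contDiff_id.contDiffOn, id, ⟨fun x _ => rfl, fun x _ => rfl⟩,
    contDiff_id.contDiffOn⟩, ⟨aemeasurable_id, by rw [Measure.map_id, one_smul]⟩,
    fun x _ => ⟨by simpa using hε.le, by rw [fderiv_id]; exact ContinuousLinearMap.norm_id_le⟩, ?_⟩
  simp [fderiv_id]

/-- Good maps are closed under composition. -/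
theorem IsGood.comp {h₂ h₁ : E → E} (h2 : IsGood h₂) (h1 : IsGood h₁) : IsGood (h₂ ∘ h₁) := by
  obtain ⟨⟨L₂, hL₂⟩, hi₂, ho₂, hall₂⟩ := h2
  obtain ⟨⟨L₁, hL₁⟩, hi₁, ho₁, hall₁⟩ := h1
  refine ⟨⟨_, hL₂.comp hL₁⟩, hi₂.comp hi₁, ho₂.comp ho₁, fun Ω hΩ hΩb => ?_⟩
  obtain ⟨M₁, C₁, H₁, hA₁⟩ := hall₁ Ω hΩ hΩb
  have hΩ' : IsOpen (h₁ '' Ω) := ho₁ _ hΩ
  have hΩ'b : Bornology.IsBounded (h₁ '' Ω) := hL₁.isBounded_image hΩb
  obtain ⟨M₂, C₂, H₂, hA₂⟩ := hall₂ _ hΩ' hΩ'b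
  have hm₂ := hA₂.mapLE hΩ' hL₂.continuous ho₂
  have hfin : IsFiniteMeasure (volume.restrict (h₁ '' Ω)) := ⟨by
    rw [Measure.restrict_apply_univ]; exact hΩ'b.measure_lt_top⟩
  obtain ⟨B, hB⟩ := (hL₂.isBounded_image hΩ'b).exists_norm_le
  have hfp : MemLp h₂ 1 (volume.restrict (h₁ '' Ω)) :=
    memLp_one_iff_integrable.2 ((integrable_const B).mono' hL₂.continuous.aestronglyMeasurable
      (ae_restrict_of_forall_mem hΩ'.measurableSet fun x hx => hB _ (mem_image_of_mem h₂ hx)))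
  have hGp : MemLp H₂ 1 (volume.restrict (h₁ '' Ω)) :=
    memLp_one_iff_integrable.2 ((integrable_const M₂).mono' hA₂.2.2.1.aestronglyMeasurable
      (Eventually.of_forall hA₂.2.2.2.1))
  have hA₁' := hA₁
  obtain ⟨hM₁, hC₁, hH₁, hHM₁, hk₁⟩ := hA₁
  obtain ⟨hM₂, hC₂, hH₂, hHM₂, hk₂⟩ := hA₂
  refine ⟨M₂ * M₁, C₁ * C₂, fun x => (H₂ (h₁ x)).comp (H₁ x), mul_nonneg hM₂ hM₁,
    ENNReal.mul_ne_top hC₁ hC₂, ?_, fun x => (ContinuousLinearMap.opNorm_comp_le _ _).trans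
      (mul_le_mul (hHM₂ _) (hHM₁ x) (norm_nonneg _) hM₂), fun ε hε => ?_⟩
  · exact (ContinuousLinearMap.compL ℝ E E E).continuous₂.comp_stronglyMeasurable
      ((hH₂.comp_measurable hL₁.continuous.measurable).prodMk hH₁)
  obtain ⟨ε₁, hε₁, hest⟩ := exists_comp_estimate hA₁' hΩ hΩb hL₁.continuous ho₁ le_rfl
    ENNReal.one_ne_top hL₂.continuous.stronglyMeasurable hH₂ hfp hGp
    (ENNReal.half_pos (show ENNReal.ofReal ε ≠ 0 by simpa using hε.not_ge))
  set K := (ENNReal.ofReal M₁ + 1) * (C₁ + 1)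
  have hK : K ≠ ⊤ := ENNReal.mul_ne_top (by simp) (by simp [hC₁])
  set v := (volume.restrict (h₁ '' Ω)) univ
  -- the tolerance for the outer map
  obtain ⟨ε₂, hε₂, hε₂ε, hε₂K⟩ : ∃ ε₂ : ℝ, 0 < ε₂ ∧ ε₂ ≤ ε / 2 ∧
      K * (ENNReal.ofReal ε₂ * v + ENNReal.ofReal ε₂) ≤ ENNReal.ofReal ε / 2 := by
    have hlim : Tendsto (fun t : ℝ => K * (ENNReal.ofReal t * v + ENNReal.ofReal t))
        (𝓝[>] (0 : ℝ)) (𝓝 0) := by
      have h0 : Tendsto (fun t : ℝ => ENNReal.ofReal t) (𝓝[>] (0 : ℝ)) (𝓝 0) := by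
        simpa using (ENNReal.continuous_ofReal.tendsto (0 : ℝ)).mono_left nhdsWithin_le_nhds
      simpa using ENNReal.Tendsto.const_mul (a := K)
        ((ENNReal.Tendsto.mul_const (b := v) h0 (Or.inr (measure_ne_top _ _))).add h0) (Or.inr hK)
    obtain ⟨t, ht, ht0, ht1⟩ := ((hlim.eventually (gt_mem_nhds (ENNReal.half_pos
      (show ENNReal.ofReal ε ≠ 0 by simpa using hε.not_ge)))).and
      (Ioo_mem_nhdsGT (show (0 : ℝ) < ε / 2 by positivity))).exists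
    exact ⟨t, ht0, ht1.le, ht.le⟩
  obtain ⟨k₂, hd₂, hm₂k, hpt₂, hL1₂⟩ := hk₂ ε₂ hε₂
  obtain ⟨k₁, hk₁'⟩ := hk₁ (min ε₁ (ε / (2 * ((L₂ : ℝ) + 1)))) (lt_min hε₁ (by positivity))
  have hk₁e : IsLipApproximant Ω h₁ M₁ C₁ H₁ ε₁ k₁ :=
    ⟨hk₁'.1, hk₁'.2.1, fun x hx => ⟨(hk₁'.2.2.1 x hx).1.trans (min_le_left _ _),
      (hk₁'.2.2.1 x hx).2⟩, hk₁'.2.2.2.trans (ENNReal.ofReal_le_ofReal (min_le_left _ _))⟩
  obtain ⟨hd₁, hm₁k, hpt₁, -⟩ := hk₁'
  refine ⟨k₂ ∘ k₁, ?_, ?_, fun x hx => ⟨?_, ?_⟩, ?_⟩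
  · rw [image_comp]; exact hd₂.comp hd₁
  · rw [image_comp]; exact hm₁k.comp hm₂k
  · have h1 := (hpt₂ _ (hd₁.1.mapsTo hx)).1
    have h2 : ‖h₂ (k₁ x) - h₂ (h₁ x)‖ ≤ L₂ * (ε / (2 * ((L₂ : ℝ) + 1))) :=
      (hL₂.norm_sub_le _ _).trans
        (mul_le_mul_of_nonneg_left ((hpt₁ x hx).1.trans (min_le_right _ _)) L₂.coe_nonneg)
    have h3 : (L₂ : ℝ) * (ε / (2 * ((L₂ : ℝ) + 1))) ≤ ε / 2 := by
      rw [mul_div_assoc', div_le_iff₀ (by positivity)]
      nlinarith [L₂.coe_nonneg]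
    simp only [comp_apply]
    linarith [norm_sub_le_norm_sub_add_norm_sub (k₂ (k₁ x)) (h₂ (k₁ x)) (h₂ (h₁ x))]
  · have hd : HasFDerivAt (k₂ ∘ k₁) ((fderiv ℝ k₂ (k₁ x)).comp (fderiv ℝ k₁ x)) x :=
      ((hd₂.2.1.differentiableOn (by simp)).differentiableAt
        (hΩ'.mem_nhds (hd₁.1.mapsTo hx))).hasFDerivAt.comp x
        ((hd₁.2.1.differentiableOn (by simp)).differentiableAt (hΩ.mem_nhds hx)).hasFDerivAt
    rw [hd.fderiv]
    exact (ContinuousLinearMap.opNorm_comp_le _ _).trans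
      (mul_le_mul (hpt₂ _ (hd₁.1.mapsTo hx)).2 (hpt₁ x hx).2 (norm_nonneg _) hM₂)
  · refine (le_add_self.trans ((hest k₁ hk₁e k₂ hd₂.2.1).trans (add_le_add
      ((mul_le_mul_of_nonneg_left ?_ zero_le).trans hε₂K) le_rfl))).trans (ENNReal.add_halves _).le
    refine add_le_add ?_ hL1₂
    refine (eLpNorm_mono_ae (g := fun _ => ε₂) (ae_restrict_of_forall_mem hΩ'.measurableSet
      fun x hx => (hpt₂ x hx).1.trans (le_abs_self _))).trans ?_
    rcases eq_or_ne (volume.restrict (h₁ '' Ω)) 0 with h0 | h0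
    · simp [h0]
    · rw [eLpNorm_const _ one_ne_zero h0, Real.enorm_eq_ofReal hε₂.le]
      simp [v]

end Vale.Agent.P073
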