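import Vale.Agent.P073.Shear.Sign

/-!
# Composition on the inside with uniformly Lipschitz diffeomorphisms
-/

namespace Vale.Agent.P073

open MeasureTheory Metric Set Function Filter
open scoped ContDiff Topology ENNReal

set_option linter.unusedSectionVars false

variable {E : Type} [NormedAddCommGroup E] [InnerProductSpace ℝ E] [FiniteDimensional ℝ E]
  [MeasureSpace E] [BorelSpace E] [(volume : Measure E).IsAddHaarMeasure] [Nontrivial E]

/-- `k` carries the volume on `Ω` to at most `C` times the volume on `Ω'`. -/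
def MapLE (C : ℝ≥0∞) (Ω Ω' : Set E) (k : E → E) : Prop :=
  AEMeasurable k (volume.restrict Ω) ∧
    Measure.map k (volume.restrict Ω) ≤ C • volume.restrict Ω'

theorem MapLE.comp {C D : ℝ≥0∞} {Ω Ω' Ω'' : Set E} {k l : E → E} (h1 : MapLE C Ω Ω' k)
    (h2 : MapLE D Ω' Ω'' l) : MapLE (C * D) Ω Ω'' (l ∘ k) := by
  obtain ⟨hk, hk'⟩ := h1
  obtain ⟨hl, hl'⟩ := h2
  have hac : Measure.map k (volume.restrict Ω) ≪ volume.restrict Ω' :=
    (hk'.absolutelyContinuous).trans Measure.smul_absolutelyContinuous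
  refine ⟨(hl.mono_ac hac).comp_aemeasurable hk, ?_⟩
  rw [← AEMeasurable.map_map_of_aemeasurable (hl.mono_ac hac) hk]
  refine Measure.le_iff.2 fun s hs => ?_
  rw [Measure.map_apply_of_aemeasurable (hl.mono_ac hac) hs]
  refine (hk' _).trans ?_
  rw [Measure.smul_apply, ← Measure.map_apply_of_aemeasurable hl hs]
  refine (mul_le_mul_of_nonneg_left (hl' s) zero_le).trans (le_of_eq ?_)
  simp [mul_assoc]

theorem MapLE.eLpNorm_le {C : ℝ≥0∞} (hC : C ≠ ⊤) {Ω Ω' : Set E} {k : E → E} (h : MapLE C Ω Ω' k)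
    {W : Type} [NormedAddCommGroup W] {w : E → W} (hw : StronglyMeasurable w) {p : ℝ≥0∞}
    (hp : 1 ≤ p) (hp' : p ≠ ⊤) :
    eLpNorm (fun x => w (k x)) p (volume.restrict Ω) ≤
      (C + 1) * eLpNorm w p (volume.restrict Ω') := by
  have e : eLpNorm w p (Measure.map k (volume.restrict Ω)) =
      eLpNorm (fun x => w (k x)) p (volume.restrict Ω) :=
    eLpNorm_map_measure hw.aestronglyMeasurable h.1
  rw [← e]
  refine (eLpNorm_mono_measure _ h.2).trans ?_
  rw [eLpNorm_smul_measure_of_ne_top hp', smul_eq_mul]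
  refine mul_le_mul_of_nonneg_right ?_ zero_le
  have hr : 1 ≤ p.toReal := by simpa using ENNReal.toReal_mono hp' hp
  rcases le_or_gt C 1 with hC1 | hC1
  · exact (ENNReal.rpow_le_one hC1 (by positivity)).trans le_add_self
  · refine (ENNReal.rpow_le_rpow_of_exponent_le hC1.le ?_).trans ((ENNReal.rpow_one _).le.trans le_self_add)
    rw [one_div, ENNReal.toReal_inv]
    exact inv_le_one_of_one_le₀ hr

theorem MapLE.ae_eq {C : ℝ≥0∞} {Ω Ω' : Set E} {k : E → E} (h : MapLE C Ω Ω' k) {W : Type}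
    {w w' : E → W} (hw : w =ᵐ[volume.restrict Ω'] w') :
    (fun x => w (k x)) =ᵐ[volume.restrict Ω] fun x => w' (k x) :=
  ae_of_ae_map h.1 ((h.2.absolutelyContinuous.trans Measure.smul_absolutelyContinuous).ae_le hw)

/-- A pointwise limit of maps with controlled image volume has controlled image volume. -/
theorem mapLE_of_limit {C : ℝ≥0∞} (hC : C ≠ ⊤) {Ω Ω' : Set E} (hΩ' : IsOpen Ω')
    {h : E → E} (hh : Continuous h) (hΩ : MeasurableSet Ω) (hmaps : MapsTo h Ω Ω')
    {k : ℕ → E → E} (hk : ∀ n, MapLE C Ω Ω' (k n))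
    (hlim : ∀ x ∈ Ω, Tendsto (fun n => k n x) atTop (𝓝 (h x))) : MapLE C Ω Ω' h := by
  classical
  have hopen : ∀ O : Set E, IsOpen O → volume (h ⁻¹' O ∩ Ω) ≤ C * volume (O ∩ Ω') := by
    intro O hO
    have h1 : ∫⁻ x in Ω, (h ⁻¹' O).indicator 1 x ≤
        ∫⁻ x in Ω, liminf (fun n => (O.indicator (1 : E → ℝ≥0∞)) (k n x)) atTop := by
      refine lintegral_mono_ae (ae_restrict_of_forall_mem hΩ fun x hx => ?_)
      by_cases hxO : h x ∈ O
      · rw [indicator_of_mem (show x ∈ h ⁻¹' O from hxO), Pi.one_apply]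
        refine le_liminf_of_le (by isBoundedDefault) ?_
        filter_upwards [(hlim x hx).eventually (hO.mem_nhds hxO)] with n hn
        rw [indicator_of_mem hn, Pi.one_apply]
      · simp [indicator_of_notMem (show x ∉ h ⁻¹' O from hxO)]
    have hm : ∀ n, AEMeasurable (fun x => (O.indicator (1 : E → ℝ≥0∞)) (k n x))
        (volume.restrict Ω) := fun n =>
      (measurable_one.indicator hO.measurableSet).comp_aemeasurable (hk n).1
    have h2 : ∀ n, ∫⁻ x in Ω, (O.indicator (1 : E → ℝ≥0∞)) (k n x) ≤ C * volume (O ∩ Ω') := by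
      intro n
      rw [← lintegral_map' (measurable_one.indicator hO.measurableSet).aemeasurable (hk n).1,
        lintegral_indicator_one hO.measurableSet]
      refine ((hk n).2 O).trans (le_of_eq ?_)
      rw [Measure.smul_apply, Measure.restrict_apply hO.measurableSet, smul_eq_mul]
    have h3 := (h1.trans (lintegral_liminf_le' hm)).trans
      (liminf_le_of_le (by isBoundedDefault) fun b hb => by
        obtain ⟨n, hn⟩ := hb.exists
        exact hn.trans (h2 n))
    rwa [lintegral_indicator_one (hO.preimage hh).measurableSet,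
      Measure.restrict_apply (hO.preimage hh).measurableSet] at h3
  refine ⟨hh.aemeasurable, Measure.le_iff.2 fun s hs => ?_⟩
  rw [Measure.map_apply hh.measurable hs, Measure.smul_apply, Measure.restrict_apply hs,
    Measure.restrict_apply (hh.measurable hs), smul_eq_mul]
  refine ENNReal.le_of_forall_pos_le_add fun ε hε _ => ?_
  obtain ⟨O, hsO, hO, hle⟩ := (s ∩ Ω').exists_isOpen_le_add volume
    (show (ε : ℝ≥0∞) / (C + 1) ≠ 0 from (ENNReal.div_pos (by simpa using hε.ne') (by simp [hC])).ne')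
  have hsub : h ⁻¹' s ∩ Ω ⊆ h ⁻¹' O ∩ Ω := fun x hx => ⟨hsO ⟨hx.1, hmaps hx.2⟩, hx.2⟩
  refine ((measure_mono hsub).trans (hopen O hO)).trans ?_
  refine (mul_le_mul_of_nonneg_left ((measure_mono inter_subset_left).trans hle) zero_le).trans ?_
  rw [mul_add]
  refine add_le_add le_rfl ?_
  refine (mul_le_mul_of_nonneg_right (le_self_add (b := (1 : ℝ≥0∞))) zero_le).trans (le_of_eq ?_)
  rw [ENNReal.mul_div_cancel (by simp) (by simp [hC])]

/-- Composition with nearly equal inner maps changes an `Lᵖ` function little. -/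
theorem exists_close_comp {Ω Ω' : Set E} (hΩ : MeasurableSet Ω) (hΩb : Bornology.IsBounded Ω)
    {C : ℝ≥0∞} (hC : C ≠ ⊤) {h : E → E} (hh : MapLE C Ω Ω' h) {W : Type} [NormedAddCommGroup W]
    [NormedSpace ℝ W] {w : E → W} (hw : StronglyMeasurable w) {p : ℝ≥0∞} (hp : 1 ≤ p)
    (hp' : p ≠ ⊤) (hwp : MemLp w p) {δ : ℝ≥0∞} (hδ : 0 < δ) :
    ∃ ε > 0, ∀ k : E → E, MapLE C Ω Ω' k → (∀ x ∈ Ω, ‖k x - h x‖ ≤ ε) →
      eLpNorm (fun x => w (k x) - w (h x)) p (volume.restrict Ω) ≤ δ := by
  rcases eq_or_ne δ ⊤ with rfl | hδt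
  · exact ⟨1, one_pos, fun _ _ _ => le_top⟩
  have hη : δ / 2 / (2 * (C + 1)) ≠ 0 :=
    (ENNReal.div_pos (ENNReal.half_pos hδ.ne').ne' (by simp [ENNReal.mul_eq_top, hC])).ne'
  obtain ⟨u, hus, huv, huc, hup⟩ := hwp.exists_hasCompactSupport_eLpNorm_sub_le hp' hη
  set c : ℝ≥0∞ := (volume.restrict Ω) univ ^ p.toReal⁻¹ with hcdef
  have hct : c ≠ ⊤ := by
    refine ENNReal.rpow_ne_top_of_nonneg (by positivity) ?_
    rw [Measure.restrict_apply_univ]
    exact hΩb.measure_lt_top.ne
  have hδ2 : δ / 2 ≠ ⊤ := ENNReal.div_ne_top hδt (by norm_num)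
  set d : ℝ := (δ / 2).toReal / (c.toReal + 1)
  have hd : 0 < d := div_pos (ENNReal.toReal_pos (ENNReal.half_pos hδ.ne').ne' hδ2) (by positivity)
  obtain ⟨θ, hθ, hu⟩ := Metric.uniformContinuous_iff.1
    (huc.uniformContinuous_of_tendsto_cocompact hus.is_zero_at_infty) d hd
  refine ⟨θ / 2, by positivity, fun k hk hclose => ?_⟩
  set v := w - u
  have hvm : StronglyMeasurable v := hw.sub huc.stronglyMeasurable
  have hcomp : ∀ {l : E → E}, MapLE C Ω Ω' l → ∀ {v : E → W}, StronglyMeasurable v →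
      AEStronglyMeasurable (fun x => v (l x)) (volume.restrict Ω) := fun hl v hv =>
    (hv.aestronglyMeasurable).comp_aemeasurable hl.1
  have hsplit : (fun x => w (k x) - w (h x)) =
      (fun x => u (k x) - u (h x)) + ((fun x => v (k x)) - fun x => v (h x)) := by
    funext x; simp [v]; abel
  rw [hsplit]
  refine (eLpNorm_add_le ((hcomp hk huc.stronglyMeasurable).sub (hcomp hh huc.stronglyMeasurable))
    ((hcomp hk hvm).sub (hcomp hh hvm)) hp).trans ?_
  refine (add_le_add ?_ (?_ : _ ≤ δ / 2)).trans (b := δ / 2 + δ / 2) (ENNReal.add_halves δ).le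
  · refine (eLpNorm_mono_ae (g := fun _ => d) (ae_restrict_of_forall_mem hΩ fun x hx => ?_)).trans ?_
    · rw [Real.norm_of_nonneg hd.le, Pi.sub_apply, ← dist_eq_norm]
      refine (hu ?_).le
      rw [dist_eq_norm]
      exact (hclose x hx).trans_lt (by linarith)
    · rcases eq_or_ne (volume.restrict Ω) 0 with h0 | h0
      · simp [h0]
      rw [eLpNorm_const _ (zero_lt_one.trans_le hp).ne' h0, Real.enorm_eq_ofReal hd.le, one_div]
      calc ENNReal.ofReal d * c = ENNReal.ofReal (d * c.toReal) := by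
            rw [ENNReal.ofReal_mul hd.le, ENNReal.ofReal_toReal hct]
        _ ≤ ENNReal.ofReal (δ / 2).toReal := by
            refine ENNReal.ofReal_le_ofReal ?_
            simp only [d]
            rw [div_mul_eq_mul_div, div_le_iff₀ (by positivity)]
            nlinarith [ENNReal.toReal_nonneg (a := c), ENNReal.toReal_nonneg (a := δ / 2)]
        _ = δ / 2 := ENNReal.ofReal_toReal hδ2
  · have hv : eLpNorm v p (volume.restrict Ω') ≤ δ / 2 / (2 * (C + 1)) :=
      (eLpNorm_mono_measure _ Measure.restrict_le_self).trans huv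
    refine (eLpNorm_sub_le (hcomp hk hvm) (hcomp hh hvm) hp).trans ((add_le_add
      (hk.eLpNorm_le hC hvm hp hp') (hh.eLpNorm_le hC hvm hp hp')).trans ?_)
    refine (add_le_add (mul_le_mul_of_nonneg_left hv zero_le)
      (mul_le_mul_of_nonneg_left hv zero_le)).trans (le_of_eq ?_)
    rw [← add_mul, ← two_mul, ENNReal.mul_div_cancel (by simp) (by simp [ENNReal.mul_eq_top, hC])]

/-- Multiplication of `w ∘ h` by a bounded operator field small in `L¹` is small in `Lᵖ`. -/
theorem exists_small_product {Ω Ω' : Set E} (hΩb : Bornology.IsBounded Ω)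
    {C : ℝ≥0∞} (hC : C ≠ ⊤) {h : E → E} (hh : MapLE C Ω Ω' h) {w : E → E →L[ℝ] E}
    (hw : StronglyMeasurable w) {p : ℝ≥0∞} (hp : 1 ≤ p) (hp' : p ≠ ⊤) (hwp : MemLp w p)
    {M : ℝ} (hM : 0 ≤ M) {δ : ℝ≥0∞} (hδ : 0 < δ) :
    ∃ ε > (0 : ℝ), ∀ T : E → E →L[ℝ] E, AEStronglyMeasurable T (volume.restrict Ω) →
      (∀ᵐ x ∂volume.restrict Ω, ‖T x‖ ≤ M) →
      eLpNorm T 1 (volume.restrict Ω) ≤ ENNReal.ofReal ε →
      eLpNorm (fun x => (w (h x)).comp (T x)) p (volume.restrict Ω) ≤ δ := by
  have hη : δ / 2 / (ENNReal.ofReal M * (C + 1) + 1) ≠ 0 :=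
    (ENNReal.div_pos (ENNReal.half_pos hδ.ne').ne' (by simp [ENNReal.mul_eq_top, hC])).ne'
  obtain ⟨u, hus, huv, huc, hup⟩ := hwp.exists_hasCompactSupport_eLpNorm_sub_le hp' hη
  obtain ⟨B, hB⟩ := hus.exists_bound_of_continuous huc
  have hB0 : 0 ≤ B := (norm_nonneg _).trans (hB 0)
  have hr : 1 ≤ p.toReal := by simpa using ENNReal.toReal_mono hp' hp
  set r := p.toReal
  have hlim : Tendsto (fun ε : ℝ => ENNReal.ofReal B *
      (ENNReal.ofReal M ^ (r - 1) * ENNReal.ofReal ε) ^ (1 / r)) (𝓝[>] (0 : ℝ)) (𝓝 0) := by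
    have h0 : Tendsto (fun ε : ℝ => ENNReal.ofReal ε) (𝓝[>] (0 : ℝ)) (𝓝 0) := by
      simpa using (ENNReal.continuous_ofReal.tendsto (0 : ℝ)).mono_left nhdsWithin_le_nhds
    have h1 := ENNReal.Tendsto.const_mul (a := ENNReal.ofReal M ^ (r - 1)) h0
      (Or.inr (ENNReal.rpow_ne_top_of_nonneg (by linarith) ENNReal.ofReal_ne_top))
    have h2 := ((ENNReal.continuous_rpow_const (y := 1 / r)).tendsto _).comp h1
    have h3 := ENNReal.Tendsto.const_mul (a := ENNReal.ofReal B) h2
      (Or.inr ENNReal.ofReal_ne_top)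
    simpa [Function.comp_def, ENNReal.zero_rpow_of_pos (show 0 < r⁻¹ from by positivity)] using h3
  obtain ⟨ε, hεd, hε0⟩ := ((hlim.eventually (gt_mem_nhds (ENNReal.half_pos hδ.ne'))).and
    self_mem_nhdsWithin).exists
  refine ⟨ε, hε0, fun T hT hTM hT1 => ?_⟩
  have hb : ∀ᵐ x ∂volume.restrict Ω, ‖(w (h x)).comp (T x)‖ₑ ≤
      ‖ENNReal.ofReal B * ‖T x‖ₑ + ENNReal.ofReal M * ‖(w - u) (h x)‖ₑ‖ₑ := by
    filter_upwards [hTM] with x hx
    rw [enorm_eq_self, ← ofReal_norm, ← ofReal_norm, ← ofReal_norm, ← ENNReal.ofReal_mul hB0,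
      ← ENNReal.ofReal_mul hM, ← ENNReal.ofReal_add (by positivity) (by positivity)]
    refine ENNReal.ofReal_le_ofReal ((ContinuousLinearMap.opNorm_comp_le _ _).trans ?_)
    have h1 : ‖w (h x)‖ ≤ B + ‖(w - u) (h x)‖ := by
      calc ‖w (h x)‖ = ‖u (h x) + (w - u) (h x)‖ := by simp
        _ ≤ B + ‖(w - u) (h x)‖ := (norm_add_le _ _).trans (add_le_add (hB _) le_rfl)
    nlinarith [norm_nonneg (T x), norm_nonneg ((w - u) (h x)), norm_nonneg (w (h x))]
  have hvm : StronglyMeasurable (w - u) := hw.sub huc.stronglyMeasurable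
  have m1 : AEStronglyMeasurable (fun x => ENNReal.ofReal B * ‖T x‖ₑ) (volume.restrict Ω) :=
    (hT.enorm.const_mul _).aestronglyMeasurable
  have m2 : AEStronglyMeasurable (fun x => ENNReal.ofReal M * ‖(w - u) (h x)‖ₑ)
      (volume.restrict Ω) :=
    ((hvm.aestronglyMeasurable.comp_aemeasurable hh.1).enorm.const_mul _).aestronglyMeasurable
  refine (eLpNorm_mono_enorm_ae hb).trans ((eLpNorm_add_le m1 m2 hp).trans ?_)
  refine (add_le_add ((eLpNorm_const_mul_ennreal_le ENNReal.ofReal_ne_top).trans ?_)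
    ((eLpNorm_const_mul_ennreal_le ENNReal.ofReal_ne_top).trans ?_)).trans (ENNReal.add_halves δ).le
  · rw [eLpNorm_enorm]
    refine le_trans (mul_le_mul_of_nonneg_left ?_ zero_le) hεd.le
    rw [eLpNorm_eq_lintegral_rpow_enorm_toReal (zero_lt_one.trans_le hp).ne' hp']
    refine ENNReal.rpow_le_rpow ?_ (by positivity)
    rw [eLpNorm_one_eq_lintegral_enorm] at hT1
    refine le_trans ?_ (mul_le_mul_of_nonneg_left hT1 zero_le)
    rw [← lintegral_const_mul' _ _
      (ENNReal.rpow_ne_top_of_nonneg (by linarith) ENNReal.ofReal_ne_top)]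
    refine lintegral_mono_ae ?_
    filter_upwards [hTM] with x hx
    calc ‖T x‖ₑ ^ r = ‖T x‖ₑ ^ (r - 1) * ‖T x‖ₑ ^ (1 : ℝ) := by
          rw [← ENNReal.rpow_add_of_nonneg _ _ (by linarith) zero_le_one, sub_add_cancel]
      _ ≤ ENNReal.ofReal M ^ (r - 1) * ‖T x‖ₑ := by
          rw [ENNReal.rpow_one]
          refine mul_le_mul_of_nonneg_right (ENNReal.rpow_le_rpow ?_ (by linarith)) zero_le
          rw [← ofReal_norm]
          exact ENNReal.ofReal_le_ofReal hx
  · rw [eLpNorm_enorm]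
    refine (mul_le_mul_of_nonneg_left ((hh.eLpNorm_le hC hvm hp hp').trans
      (mul_le_mul_of_nonneg_left ((eLpNorm_mono_measure _ Measure.restrict_le_self).trans huv)
        zero_le)) zero_le).trans ?_
    rw [← mul_assoc]
    refine (mul_le_mul_of_nonneg_right (le_self_add (b := (1 : ℝ≥0∞))) zero_le).trans (le_of_eq ?_)
    rw [ENNReal.mul_div_cancel (by simp) (by simp [ENNReal.mul_eq_top, hC])]

/-- The limit of `W^{1,p}` diffeomorphic approximation satisfies integration by parts. -/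
theorem hasSobolevDeriv_of_approximable {Ω Λ : Set E} (hΩ : IsOpen Ω) (hΩb : Bornology.IsBounded Ω)
    {p : ℝ≥0∞} (hp : 1 ≤ p) (hp' : p ≠ ⊤) {f : E → E} {G : E → E →L[ℝ] E}
    (hf : MemLp f p (volume.restrict Ω)) (hG : MemLp G p (volume.restrict Ω))
    (happ : IsDiffeoApproximable Ω Λ p f G) : HasSobolevDeriv Ω p f G := by
  refine ⟨hf, hG, fun ψ hψ hψc hψΩ v => ?_⟩
  have hfin : IsFiniteMeasure (volume.restrict Ω) := ⟨by
    rw [Measure.restrict_apply_univ]; exact hΩb.measure_lt_top⟩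
  obtain ⟨B, hB⟩ := hψc.exists_bound_of_continuous hψ.continuous
  obtain ⟨B', hB'⟩ := ((hψc.fderiv_apply ℝ v)).exists_bound_of_continuous
    ((hψ.continuous_fderiv (by simp)).clm_apply continuous_const)
  set a : E := ∫ x in Ω, fderiv ℝ ψ x v • f x
  set b : E := ∫ x in Ω, ψ x • G x v
  have hfi : Integrable f (volume.restrict Ω) := hf.integrable hp
  have hGi : Integrable (fun x => G x v) (volume.restrict Ω) :=
    (hG.integrable hp).apply_continuousLinearMap v
  have mψ : AEStronglyMeasurable ψ (volume.restrict Ω) := hψ.continuous.aestronglyMeasurable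
  have mψ' : AEStronglyMeasurable (fun x => fderiv ℝ ψ x v) (volume.restrict Ω) :=
    ((hψ.continuous_fderiv (by simp)).clm_apply continuous_const).aestronglyMeasurable
  have hsmall : ∀ ε : ℝ, 0 < ε → ‖a + b‖ ≤ ε := by
    intro ε hε
    set Q := B' + B * ‖v‖ + 1
    have hB0 : 0 ≤ B := (norm_nonneg _).trans (hB 0)
    have hB'0 : 0 ≤ B' := (norm_nonneg _).trans (hB' 0)
    set c : ℝ≥0∞ := (volume.restrict Ω) univ ^ (1 / (1 : ℝ≥0∞).toReal - 1 / p.toReal)
    have hc : c ≠ ⊤ := ENNReal.rpow_ne_top_of_nonneg (by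
      have hr : 1 ≤ p.toReal := by simpa using ENNReal.toReal_mono hp' hp
      rw [ENNReal.toReal_one, div_one, sub_nonneg, div_le_one (by linarith)]
      exact hr) (measure_ne_top _ _)
    obtain ⟨k, ⟨-, hks, -⟩, hlt⟩ := happ (ENNReal.ofReal (ε / Q) / (c + 1))
      (ENNReal.div_pos (by simp [Q]; positivity) (by simp [hc]))
    have hkm : AEStronglyMeasurable k (volume.restrict Ω) :=
      hks.continuousOn.aestronglyMeasurable hΩ.measurableSet
    have hDm : AEStronglyMeasurable (fderiv ℝ k) (volume.restrict Ω) :=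
      (measurable_fderiv ℝ k).stronglyMeasurable.aestronglyMeasurable
    have hn0 : eLpNorm (fun x => k x - f x) 1 (volume.restrict Ω) +
        eLpNorm (fun x => fderiv ℝ k x - G x) 1 (volume.restrict Ω) ≤ ENNReal.ofReal (ε / Q) := by
      refine (add_le_add (eLpNorm_le_eLpNorm_mul_rpow_measure_univ hp (hkm.sub hf.1))
        (eLpNorm_le_eLpNorm_mul_rpow_measure_univ hp (hDm.sub hG.1))).trans ?_
      rw [← add_mul]
      refine (mul_le_mul_of_nonneg_right hlt.le zero_le).trans ?_
      refine (mul_le_mul_of_nonneg_left (le_self_add (b := (1 : ℝ≥0∞))) zero_le).trans (le_of_eq ?_)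
      rw [ENNReal.div_mul_cancel (by simp) (by simp [hc])]
    have i1 : Integrable (fun x => k x - f x) (volume.restrict Ω) :=
      memLp_one_iff_integrable.1 ⟨hkm.sub hf.1, (le_self_add.trans hn0).trans_lt ENNReal.ofReal_lt_top⟩
    have i2 : Integrable (fun x => fderiv ℝ k x - G x) (volume.restrict Ω) :=
      memLp_one_iff_integrable.1 ⟨hDm.sub hG.1, (le_add_self.trans hn0).trans_lt ENNReal.ofReal_lt_top⟩
    have hki : Integrable k (volume.restrict Ω) := by simpa [Pi.add_def] using i1.add hfi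
    have hDi : Integrable (fun x => fderiv ℝ k x v) (volume.restrict Ω) := by
      have h' : Integrable (fun x => (fderiv ℝ k x - G x) v + G x v) (volume.restrict Ω) :=
        (i2.apply_continuousLinearMap v).add hGi
      simpa using h'
    -- integration by parts for the approximant
    set φ : E → E := fun x => ψ x • k x with hφ
    have hφs : ContDiff ℝ 1 φ := by
      refine contDiff_iff_contDiffAt.2 fun x => ?_
      by_cases hx : x ∈ tsupport ψ
      · exact ((hψ.of_le (by simp)).contDiffAt).smul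
          ((hks.of_le (by simp)).contDiffAt (hΩ.mem_nhds (hψΩ hx)))
      · exact (contDiffAt_const (c := (0 : E))).congr_of_eventuallyEq (by
          filter_upwards [(isClosed_tsupport ψ).isOpen_compl.mem_nhds hx] with y hy
          simp [φ, image_eq_zero_of_notMem_tsupport hy])
    have hφc : HasCompactSupport φ := hψc.smul_right
    have hzero : ∫ x, fderiv ℝ φ x v = 0 := by
      have h1 := integral_bilinear_hasFDerivAt_right_eq_neg_left_of_integrable
        (μ := (volume : Measure E)) (B := ContinuousLinearMap.lsmul ℝ ℝ (E := E))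
        (f := fun _ => (1 : ℝ)) (f' := fun _ => 0) (g := φ) (g' := fderiv ℝ φ) (v := v)
        (by simp)
        (by simpa using ((hφs.continuous_fderiv one_ne_zero).clm_apply continuous_const
          ).integrable_of_hasCompactSupport (hφc.fderiv_apply ℝ v))
        (by simpa using hφs.continuous.integrable_of_hasCompactSupport hφc)
        (fun x _ => hasFDerivAt_const _ _) (fun x _ => (hφs.differentiable one_ne_zero x).hasFDerivAt)
      simpa using h1
    have hval : ∀ x ∈ Ω, fderiv ℝ φ x v = fderiv ℝ ψ x v • k x + ψ x • fderiv ℝ k x v := by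
      intro x hx
      have h1 := (hψ.differentiable (by simp) x).hasFDerivAt.smul
        ((hks.differentiableOn (by simp)).differentiableAt (hΩ.mem_nhds hx)).hasFDerivAt
      rw [show φ = ψ • k from rfl, h1.fderiv]
      simp [add_comm]
    have hk0 : ∫ x in Ω, (fderiv ℝ ψ x v • k x + ψ x • fderiv ℝ k x v) = 0 := by
      rw [← setIntegral_congr_fun hΩ.measurableSet hval,
        setIntegral_eq_integral_of_forall_compl_eq_zero, hzero]
      intro x hx
      have hx' : x ∉ tsupport ψ := fun h => hx (hψΩ h)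
      have hx2 : x ∉ tsupport φ := fun h => hx' (tsupport_smul_subset_left ψ k h)
      rw [image_eq_zero_of_notMem_tsupport fun h => hx2 (tsupport_fderiv_subset ℝ h), zero_apply]
    have j1 := hfi.bdd_smul (φ := fun x => fderiv ℝ ψ x v) B' mψ' (Eventually.of_forall hB')
    have j2 := hGi.bdd_smul (φ := ψ) B mψ (Eventually.of_forall hB)
    have j3 := hki.bdd_smul (φ := fun x => fderiv ℝ ψ x v) B' mψ' (Eventually.of_forall hB')
    have j4 := hDi.bdd_smul (φ := ψ) B mψ (Eventually.of_forall hB)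
    have hab : a + b = -∫ x in Ω, (fderiv ℝ ψ x v • (k x - f x) +
        ψ x • (fderiv ℝ k x - G x) v) := by
      have : (fun x => fderiv ℝ ψ x v • (k x - f x) + ψ x • (fderiv ℝ k x - G x) v) = fun x =>
          (fderiv ℝ ψ x v • k x + ψ x • fderiv ℝ k x v) -
            (fderiv ℝ ψ x v • f x + ψ x • G x v) := by
        funext x; simp [smul_sub]; abel
      rw [this, integral_sub, hk0, integral_add, zero_sub, neg_neg]
      exacts [j1, j2, j3.add j4, j1.add j2]
    rw [hab, norm_neg]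
    refine (norm_integral_le_of_norm_le
      ((i1.norm.const_mul B').add (i2.norm.const_mul (B * ‖v‖))) (Eventually.of_forall fun x => ?_)).trans ?_
    · refine (norm_add_le _ _).trans (add_le_add ?_ ?_)
      · rw [norm_smul]
        exact mul_le_mul_of_nonneg_right (hB' x) (norm_nonneg _)
      · show _ ≤ B * ‖v‖ * ‖fderiv ℝ k x - G x‖
        rw [norm_smul, mul_assoc, mul_comm ‖v‖]
        exact mul_le_mul (hB x) ((fderiv ℝ k x - G x).le_opNorm v) (norm_nonneg _) hB0
    · rw [integral_add' (i1.norm.const_mul B') (i2.norm.const_mul (B * ‖v‖)), integral_const_mul,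
        integral_const_mul, integral_norm_eq_lintegral_enorm i1.1,
        integral_norm_eq_lintegral_enorm i2.1, ← eLpNorm_one_eq_lintegral_enorm,
        ← eLpNorm_one_eq_lintegral_enorm]
      have t1 := ENNReal.toReal_le_of_le_ofReal (by positivity) (le_self_add.trans hn0)
      have t2 := ENNReal.toReal_le_of_le_ofReal (by positivity) (le_add_self.trans hn0)
      calc _ ≤ B' * (ε / Q) + B * ‖v‖ * (ε / Q) :=
            add_le_add (mul_le_mul_of_nonneg_left t1 hB'0)
              (mul_le_mul_of_nonneg_left t2 (by positivity))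
        _ = (B' + B * ‖v‖) / Q * ε := by ring
        _ ≤ ε := mul_le_of_le_one_left hε.le (by
            rw [div_le_one (by positivity)]; simp [Q])
  exact eq_neg_of_add_eq_zero_left (norm_le_zero_iff.1 (le_of_forall_pos_le_add fun ε hε => by
    simpa using hsmall ε hε))

end Vale.Agent.P073
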